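import Vale.Agent.P181.H663.Pos3

set_option autoImplicit false
set_option linter.unusedSectionVars false
set_option linter.unusedVariables false

/-!
# P181: the exchange in label form
-/

namespace Vale.Agent.P181.H663

open Finset

section Sub

variable {κ : Type} [DecidableEq κ]

/-- The sum over the `d`-subsets of `Q` which contain `B`. -/
noncomputable def TT (Q : Finset κ) (d : ℕ) (g : Finset κ → ℂ) (B : Finset κ) : ℂ :=
  ∑ A ∈ (powersetCard d Q).filter (fun A => B ⊆ A), g A

lemma TT_step (Q : Finset κ) (d : ℕ) (g : Finset κ → ℂ) (B : Finset κ) (hB : B ⊆ Q)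
    (hd : B.card ≤ d) :
    ((d - B.card : ℕ) : ℂ) * TT Q d g B = ∑ p ∈ Q \ B, TT Q d g (insert p B) := by
  unfold TT
  rw [Finset.mul_sum]
  have h1 : ∀ p ∈ Q \ B, ∑ A ∈ (powersetCard d Q).filter (fun A => insert p B ⊆ A), g A =
      ∑ A ∈ (powersetCard d Q).filter (fun A => B ⊆ A), if p ∈ A then g A else 0 := by
    intro p _
    rw [← Finset.sum_filter, Finset.filter_filter]
    refine Finset.sum_congr ?_ fun _ _ => rfl
    ext A
    simp only [Finset.mem_filter, Finset.insert_subset_iff]
    tauto
  rw [Finset.sum_congr rfl h1, Finset.sum_comm]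
  refine Finset.sum_congr rfl fun A hA => ?_
  rw [Finset.mem_filter, Finset.mem_powersetCard] at hA
  obtain ⟨⟨hAQ, hAc⟩, hBA⟩ := hA
  rw [← Finset.sum_filter, Finset.sum_const, nsmul_eq_mul]
  congr 2
  have h2 : (Q \ B).filter (fun p => p ∈ A) = A \ B := by
    ext p
    simp only [Finset.mem_filter, Finset.mem_sdiff]
    constructor
    · rintro ⟨⟨_, h⟩, h'⟩
      exact ⟨h', h⟩
    · rintro ⟨h, h'⟩
      exact ⟨⟨hAQ h, h'⟩, h⟩
  rw [h2, Finset.card_sdiff_of_subset hBA, hAc]

lemma TT_top (Q : Finset κ) (d : ℕ) (g : Finset κ → ℂ) (B : Finset κ) (hB : B ⊆ Q)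
    (hd : B.card = d) : TT Q d g B = g B := by
  unfold TT
  have : (powersetCard d Q).filter (fun A => B ⊆ A) = {B} := by
    ext A
    simp only [Finset.mem_filter, Finset.mem_powersetCard, Finset.mem_singleton]
    constructor
    · rintro ⟨⟨_, h1⟩, h2⟩
      exact (Finset.eq_of_subset_of_card_le h2 (by omega)).symm
    · rintro rfl
      exact ⟨⟨hB, hd⟩, subset_rfl⟩
  rw [this, Finset.sum_singleton]

lemma TT_zero (Q : Finset κ) (d : ℕ) (g : Finset κ → ℂ)
    (h : ∀ A' : Finset κ, A' ⊆ Q → A'.card + 1 = d → ∑ p ∈ Q \ A', g (insert p A') = 0) (m : ℕ) :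
    ∀ B : Finset κ, B ⊆ Q → B.card + m + 1 = d → TT Q d g B = 0 := by
  induction m with
  | zero =>
    intro B hB hm
    have h1 := TT_step Q d g B hB (by omega)
    have h2 : ∑ p ∈ Q \ B, TT Q d g (insert p B) = 0 := by
      rw [← h B hB (by omega)]
      refine Finset.sum_congr rfl fun p hp => ?_
      rw [Finset.mem_sdiff] at hp
      refine TT_top Q d g _ (Finset.insert_subset hp.1 hB) ?_
      rw [Finset.card_insert_of_notMem hp.2]
      omega
    rw [h2] at h1
    have h3 : d - B.card = 1 := by omega
    rw [h3] at h1
    simpa using h1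
  | succ m ih =>
    intro B hB hm
    have h1 := TT_step Q d g B hB (by omega)
    have h2 : ∑ p ∈ Q \ B, TT Q d g (insert p B) = 0 := by
      refine Finset.sum_eq_zero fun p hp => ?_
      rw [Finset.mem_sdiff] at hp
      refine ih _ (Finset.insert_subset hp.1 hB) ?_
      rw [Finset.card_insert_of_notMem hp.2]
      omega
    rw [h2] at h1
    rcases mul_eq_zero.1 h1 with h3 | h3
    · exfalso
      have h4 : d - B.card = 0 := by exact_mod_cast h3
      omega
    · exact h3

/-- A function of the `d`-subsets of a `2d`-set killed by the down operator gets the sign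
`(-1)^d` under complements. -/
lemma sub_alt (Q : Finset κ) (d : ℕ) (hQ : Q.card = d + d) (g : Finset κ → ℂ)
    (h : ∀ A' : Finset κ, A' ⊆ Q → A'.card + 1 = d → ∑ p ∈ Q \ A', g (insert p A') = 0)
    (A : Finset κ) (hA : A ⊆ Q) (hc : A.card = d) : g (Q \ A) = (-1) ^ d * g A := by
  have h1 : g (Q \ A) = ∑ D ∈ powersetCard d Q, if A ∩ D = ∅ then g D else 0 := by
    rw [← Finset.sum_filter]
    have : (powersetCard d Q).filter (fun D => A ∩ D = ∅) = {Q \ A} := by
      ext D
      simp only [Finset.mem_filter, Finset.mem_powersetCard, Finset.mem_singleton]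
      constructor
      · rintro ⟨⟨h1, h2⟩, h3⟩
        have h4 : D ⊆ Q \ A := by
          intro x hx
          rw [Finset.mem_sdiff]
          refine ⟨h1 hx, fun hxA => ?_⟩
          have : x ∈ A ∩ D := Finset.mem_inter.2 ⟨hxA, hx⟩
          rw [h3] at this
          exact absurd this (Finset.notMem_empty x)
        refine Finset.eq_of_subset_of_card_le h4 ?_
        rw [Finset.card_sdiff_of_subset hA]
        omega
      · rintro rfl
        refine ⟨⟨Finset.sdiff_subset, ?_⟩, Finset.inter_sdiff_self A Q⟩
        rw [Finset.card_sdiff_of_subset hA]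
        omega
    rw [this, Finset.sum_singleton]
  have h2 : ∀ D : Finset κ, (if A ∩ D = ∅ then g D else 0) =
      ∑ B ∈ A.powerset, if B ⊆ D then (-1 : ℂ) ^ B.card * g D else 0 := by
    intro D
    rw [← Finset.sum_filter, ← Finset.sum_mul]
    have h3 : A.powerset.filter (fun B => B ⊆ D) = (A ∩ D).powerset := by
      ext B
      simp only [Finset.mem_filter, Finset.mem_powerset, Finset.subset_inter_iff]
    rw [h3]
    have h4 := Finset.sum_powerset_neg_one_pow_card (x := A ∩ D)
    have h5 : ∑ B ∈ (A ∩ D).powerset, (-1 : ℂ) ^ B.card =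
        ((∑ B ∈ (A ∩ D).powerset, (-1 : ℤ) ^ B.card : ℤ) : ℂ) := by
      push_cast
      rfl
    rw [h5, h4]
    split_ifs <;> simp
  rw [h1, Finset.sum_congr rfl fun D _ => h2 D, Finset.sum_comm]
  have h3 : ∀ B ∈ A.powerset, (∑ D ∈ powersetCard d Q,
      if B ⊆ D then (-1 : ℂ) ^ B.card * g D else 0) = (-1 : ℂ) ^ B.card * TT Q d g B := by
    intro B _
    rw [← Finset.sum_filter, TT, Finset.mul_sum]
  rw [Finset.sum_congr rfl h3, Finset.sum_eq_single_of_mem A (Finset.mem_powerset_self A)]
  · rw [TT_top Q d g A hA hc, hc]
  · intro B hB hBA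
    rw [Finset.mem_powerset] at hB
    have h4 : B.card < A.card := Finset.card_lt_card (lt_of_le_of_ne hB hBA)
    rw [TT_zero Q d g h (d - B.card - 1) B (hB.trans hA) (by omega), mul_zero]

end Sub

section Exch

variable {κ S W : Type} [Fintype κ] [DecidableEq κ] [DecidableEq S]

/-- The number of letters with label `i`. -/
def cnt (i : S) (s : κ → S) : ℕ := (univ.filter (fun p => s p = i)).card

/-- The exchange: a function of labels with weight `(d, d)` at `(a, c)` which is killed by `E_ca`
gets the sign `(-1)^d` under the swap of `a` and `c`. -/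
theorem exch (a c : S) (hac : a ≠ c) (d : ℕ) (f : (κ → S) → W → ℂ)
    (hw : ∀ s w, (cnt a s ≠ d ∨ cnt c s ≠ d) → f s w = 0) (h0 : EE c a f = 0) :
    act (Equiv.swap a c) f = fun s w => (-1) ^ d * f s w := by
  funext s w
  change f (fun p => (Equiv.swap a c)⁻¹ (s p)) w = (-1) ^ d * f s w
  rw [Equiv.swap_inv]
  by_cases hs : cnt a s = d ∧ cnt c s = d
  swap
  · have h1 : cnt a s ≠ d ∨ cnt c s ≠ d := by
      by_contra h
      push Not at h
      exact hs h
    rw [hw s w h1, mul_zero]
    refine hw _ w ?_
    have e1 : cnt a (fun p => Equiv.swap a c (s p)) = cnt c s := by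
      unfold cnt
      congr 1
      ext p
      simp only [Finset.mem_filter, Finset.mem_univ, true_and]
      rw [Equiv.swap_apply_eq_iff, Equiv.swap_apply_left]
    have e2 : cnt c (fun p => Equiv.swap a c (s p)) = cnt a s := by
      unfold cnt
      congr 1
      ext p
      simp only [Finset.mem_filter, Finset.mem_univ, true_and]
      rw [Equiv.swap_apply_eq_iff, Equiv.swap_apply_right]
    rw [e1, e2]
    exact h1.symm
  · obtain ⟨ha, hc⟩ := hs
    set Aa := univ.filter (fun p => s p = a) with hAa
    set Ac := univ.filter (fun p => s p = c) with hAc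
    have hdis : Disjoint Aa Ac := by
      rw [Finset.disjoint_left]
      intro p hp hp'
      rw [hAa, Finset.mem_filter] at hp
      rw [hAc, Finset.mem_filter] at hp'
      exact hac (hp.2.symm.trans hp'.2)
    set Q := Aa ∪ Ac with hQ
    have hQc : Q.card = d + d := by
      rw [hQ, Finset.card_union_of_disjoint hdis]
      unfold cnt at ha hc
      rw [hAa, hAc, ha, hc]
    let lab : Finset κ → κ → S := fun A p => if p ∈ Q then (if p ∈ A then a else c) else s p
    have hlab : ∀ p, p ∉ Q → s p ≠ a ∧ s p ≠ c := by
      intro p hp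
      constructor
      · intro h
        exact hp (Finset.mem_union_left _ (by rw [hAa, Finset.mem_filter]; exact ⟨mem_univ _, h⟩))
      · intro h
        exact hp (Finset.mem_union_right _ (by rw [hAc, Finset.mem_filter]; exact ⟨mem_univ _, h⟩))
    have key := sub_alt Q d hQc (fun A => f (lab A) w) ?_ Aa Finset.subset_union_left ha
    · have e1 : lab (Q \ Aa) = fun p => Equiv.swap a c (s p) := by
        funext p
        by_cases hp : p ∈ Q
        · simp only [lab, if_pos hp]
          by_cases hpa : p ∈ Aa
          · have : p ∉ Q \ Aa := fun h => (Finset.mem_sdiff.1 h).2 hpa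
            rw [if_neg this]
            rw [hAa, Finset.mem_filter] at hpa
            rw [hpa.2, Equiv.swap_apply_left]
          · have : p ∈ Q \ Aa := Finset.mem_sdiff.2 ⟨hp, hpa⟩
            rw [if_pos this]
            have hpc : p ∈ Ac := by
              rcases Finset.mem_union.1 hp with h | h
              · exact absurd h hpa
              · exact h
            rw [hAc, Finset.mem_filter] at hpc
            rw [hpc.2, Equiv.swap_apply_right]
        · simp only [lab, if_neg hp]
          rw [Equiv.swap_apply_of_ne_of_ne (hlab p hp).1 (hlab p hp).2]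
      have e2 : lab Aa = s := by
        funext p
        by_cases hp : p ∈ Q
        · simp only [lab, if_pos hp]
          by_cases hpa : p ∈ Aa
          · rw [if_pos hpa]
            rw [hAa, Finset.mem_filter] at hpa
            exact hpa.2.symm
          · rw [if_neg hpa]
            have hpc : p ∈ Ac := by
              rcases Finset.mem_union.1 hp with h | h
              · exact absurd h hpa
              · exact h
            rw [hAc, Finset.mem_filter] at hpc
            exact hpc.2.symm
        · simp only [lab, if_neg hp]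
      simp only [e1, e2] at key
      exact key
    · intro A' hA' hA'c
      have h1 : EE c a f (lab A') w = 0 := by
        rw [h0]
        rfl
      rw [← h1, EE]
      have h2 : univ.filter (fun p => lab A' p = c) = Q \ A' := by
        ext p
        simp only [Finset.mem_filter, Finset.mem_univ, true_and, Finset.mem_sdiff]
        by_cases hp : p ∈ Q
        · simp only [lab, if_pos hp, hp, true_and]
          by_cases hpa : p ∈ A'
          · rw [if_pos hpa]
            exact ⟨fun h => absurd h hac, fun h => absurd hpa h⟩
          · rw [if_neg hpa]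
            exact ⟨fun _ => hpa, fun _ => rfl⟩
        · simp only [lab, if_neg hp, hp, false_and, iff_false]
          exact (hlab p hp).2
      rw [h2]
      refine Finset.sum_congr rfl fun p hp => ?_
      rw [Finset.mem_sdiff] at hp
      congr 1
      funext p'
      by_cases hpp : p' = p
      · subst hpp
        rw [Function.update_self]
        simp only [lab, if_pos hp.1, if_pos (Finset.mem_insert_self p' A')]
      · rw [Function.update_of_ne hpp]
        simp only [lab]
        by_cases hq : p' ∈ Q
        · rw [if_pos hq, if_pos hq]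
          have : (p' ∈ insert p A') ↔ (p' ∈ A') := by
            rw [Finset.mem_insert]
            exact ⟨fun h => h.resolve_left hpp, Or.inr⟩
          by_cases hq' : p' ∈ A'
          · rw [if_pos (this.2 hq'), if_pos hq']
          · rw [if_neg (fun h => hq' (this.1 h)), if_neg hq']
        · rw [if_neg hq, if_neg hq]

end Exch

end Vale.Agent.P181.H663
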