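import Vale.Agent.P181.MathlibUsed

set_option autoImplicit false

/-!
# P181: operators on functions of labels

`κ` is the set of letters, `S` the set of labels, `W` the set of words.  `EE i j` replaces one
label `i` by `j` (in all ways), `act τ` permutes the labels.
-/

namespace Vale.Agent.P181.H663

open Finset

section Defs

variable {κ S W : Type} [Fintype κ] [DecidableEq κ] [DecidableEq S]

/-- Sum over the letters with label `i` of the value with this label replaced by `j`. -/
noncomputable def EE (i j : S) (f : (κ → S) → W → ℂ) : (κ → S) → W → ℂ := fun s w =>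
  ∑ p ∈ univ.filter (fun p => s p = i), f (Function.update s p j) w

/-- The action of a permutation of the labels. -/
def act (τ : Equiv.Perm S) (f : (κ → S) → W → ℂ) : (κ → S) → W → ℂ := fun s w =>
  f (fun p => τ⁻¹ (s p)) w

end Defs

/-- (X1) positivity with labels. -/
def X1 : Prop := ∀ (κ S W : Type) [Fintype κ] [DecidableEq κ] [Fintype S] [DecidableEq S]
  [Fintype W] (a b : S) (C : Finset S) (v : (κ → S) → W → ℂ) (t : S → (κ → S) → W → ℂ),
  a ≠ b → (∀ c ∈ C, c ≠ a ∧ c ≠ b) → EE a b v = 0 → EE b a v = 0 →
  (∀ c ∈ C, act (Equiv.swap a b) (t c) = t c) →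
  (∀ c ∈ C, EE b c (act (Equiv.swap b c) (t c)) = v) →
  (∀ c ∈ C, EE a c (act (Equiv.swap a c) (t c)) = v) →
  v + v = ∑ c ∈ C, t c → v = 0

end Vale.Agent.P181.H663
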