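import Vale.Agent.P181.H663.Lab

set_option autoImplicit false
set_option linter.unusedSectionVars false
set_option linter.unusedVariables false

/-!
# P181: positivity with labels

`x1`: the abstract claim.
-/

namespace Vale.Agent.P181.H663

open Finset

section Core

open scoped InnerProductSpace

/-- The one-label estimate. -/
lemma core {V : Type*} [NormedAddCommGroup V] [InnerProductSpace ℂ V] [FiniteDimensional ℂ V]
    (Eab Eba Ebc Ecb Eac Eca : V →ₗ[ℂ] V)
    (h1 : ∀ x y, ⟪Eab x, y⟫_ℂ = ⟪x, Eba y⟫_ℂ)
    (h1' : ∀ x y, ⟪Eba x, y⟫_ℂ = ⟪x, Eab y⟫_ℂ)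
    (h2 : ∀ x y, ⟪x, Ebc y⟫_ℂ = ⟪Ecb x, y⟫_ℂ)
    (h2' : ∀ x y, ⟪x, Ecb y⟫_ℂ = ⟪Ebc x, y⟫_ℂ)
    (h3 : ∀ x y, ⟪x, Eac y⟫_ℂ = ⟪Eca x, y⟫_ℂ)
    (h3' : ∀ x y, ⟪x, Eca y⟫_ℂ = ⟪Eac x, y⟫_ℂ)
    (c1 : ∀ x, Eab (Ebc (Ecb x) + Eac (Eca x)) = Ebc (Ecb (Eab x)) + Eac (Eca (Eab x)))
    (c2 : ∀ x, Eba (Ebc (Ecb x) + Eac (Eca x)) = Ebc (Ecb (Eba x)) + Eac (Eca (Eba x)))
    (v t X X' : V) (v1 : Eab v = 0) (v2 : Eba v = 0)
    (hS : Ebc (Ecb t) + Eac (Eca t) + v + v = Eab X + Eba X') :
    (⟪t, v⟫_ℂ).re ≤ 0 := by
  set K : Submodule ℂ V := LinearMap.ker Eab ⊓ LinearMap.ker Eba with hK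
  obtain ⟨y, hy, z, hz, rfl⟩ := K.exists_add_mem_mem_orthogonal t
  have hvK : v ∈ K := by
    rw [hK, Submodule.mem_inf, LinearMap.mem_ker, LinearMap.mem_ker]
    exact ⟨v1, v2⟩
  have hSK : ∀ x ∈ K, Ebc (Ecb x) + Eac (Eca x) ∈ K := by
    intro x hx
    rw [hK, Submodule.mem_inf, LinearMap.mem_ker, LinearMap.mem_ker] at hx ⊢
    refine ⟨?_, ?_⟩
    · rw [c1, hx.1]
      simp
    · rw [c2, hx.2]
      simp
  have hSz : Ebc (Ecb z) + Eac (Eca z) ∈ Kᗮ := by
    rw [Submodule.mem_orthogonal]
    intro k hk
    rw [inner_add_right, h2, h2', h3, h3', ← inner_add_left]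
    exact (Submodule.mem_orthogonal K z).1 hz _ (hSK k hk)
  have hX : Eab X + Eba X' ∈ Kᗮ := by
    rw [Submodule.mem_orthogonal]
    intro k hk
    rw [hK, Submodule.mem_inf, LinearMap.mem_ker, LinearMap.mem_ker] at hk
    rw [inner_add_right, ← h1', ← h1, hk.1, hk.2]
    simp
  have hD : Ebc (Ecb y) + Eac (Eca y) + v + v = 0 := by
    have e1 : Ebc (Ecb y) + Eac (Eca y) + v + v =
        (Eab X + Eba X') - (Ebc (Ecb z) + Eac (Eca z)) := by
      rw [← hS, map_add, map_add, map_add, map_add]
      abel
    have e2 : Ebc (Ecb y) + Eac (Eca y) + v + v ∈ K :=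
      K.add_mem (K.add_mem (hSK y hy) hvK) hvK
    have e3 : Ebc (Ecb y) + Eac (Eca y) + v + v ∈ Kᗮ := by
      rw [e1]
      exact Submodule.sub_mem _ hX hSz
    have e4 := (Submodule.mem_orthogonal K _).1 e3 _ e2
    exact inner_self_eq_zero.1 e4
  have hzv : ⟪z, v⟫_ℂ = 0 := by
    have := (Submodule.mem_orthogonal K z).1 hz v hvK
    rw [← inner_conj_symm, this, map_zero]
  rw [inner_add_left, hzv, add_zero]
  have e5 : ⟪y, Ebc (Ecb y) + Eac (Eca y) + v + v⟫_ℂ = 0 := by
    rw [hD, inner_zero_right]
  rw [inner_add_right, inner_add_right, inner_add_right, h2, h3] at e5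
  have e6 := congrArg Complex.re e5
  rw [Complex.add_re, Complex.add_re, Complex.add_re, Complex.zero_re] at e6
  have e7 : 0 ≤ (⟪Ecb y, Ecb y⟫_ℂ).re := by
    have := inner_self_nonneg (𝕜 := ℂ) (x := Ecb y)
    simpa using this
  have e8 : 0 ≤ (⟪Eca y, Eca y⟫_ℂ).re := by
    have := inner_self_nonneg (𝕜 := ℂ) (x := Eca y)
    simpa using this
  linarith

end Core

section Ops

variable {κ S W : Type} [Fintype κ] [DecidableEq κ] [DecidableEq S]

lemma EE_add (i j : S) (f g : (κ → S) → W → ℂ) : EE i j (f + g) = EE i j f + EE i j g := by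
  funext s w
  simp only [EE, Pi.add_apply, Finset.sum_add_distrib]

lemma EE_zero (i j : S) : EE i j (0 : (κ → S) → W → ℂ) = 0 := by
  funext s w
  simp [EE]

lemma EE_smul (i j : S) (c : ℂ) (f : (κ → S) → W → ℂ) : EE i j (c • f) = c • EE i j f := by
  funext s w
  simp only [EE, Pi.smul_apply, smul_eq_mul, Finset.mul_sum]

/-- Indicator form. -/
lemma EE_eq (i j : S) (f : (κ → S) → W → ℂ) (s : κ → S) (w : W) :
    EE i j f s w = ∑ p, if s p = i then f (Function.update s p j) w else 0 := by
  rw [EE, Finset.sum_filter]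

/-- The commutator for `E_ij E_kl` with `j ≠ k`, `i ≠ l`: they commute. -/
lemma EE_comm (i j k l : S) (h1 : j ≠ k) (h2 : l ≠ i) (f : (κ → S) → W → ℂ) :
    EE i j (EE k l f) = EE k l (EE i j f) := by
  funext s w
  simp only [EE_eq]
  have e : ∀ p q : κ, (if s p = i then (if Function.update s p j q = k then
      f (Function.update (Function.update s p j) q l) w else 0) else 0) =
      (if s q = k then (if Function.update s q l p = i then
        f (Function.update (Function.update s q l) p j) w else 0) else 0) := by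
    intro p q
    by_cases hpq : p = q
    · subst hpq
      rw [Function.update_self, Function.update_self, if_neg h1, if_neg h2]
      simp
    · rw [Function.update_of_ne (Ne.symm hpq), Function.update_of_ne hpq,
        Function.update_comm hpq]
      by_cases a1 : s p = i <;> by_cases a2 : s q = k <;> simp [a1, a2]
  have l1 : (∑ p, if s p = i then (∑ q, if Function.update s p j q = k then
      f (Function.update (Function.update s p j) q l) w else 0) else 0) =
      ∑ p, ∑ q, (if s p = i then (if Function.update s p j q = k then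
      f (Function.update (Function.update s p j) q l) w else 0) else 0) := by
    refine Finset.sum_congr rfl fun p _ => ?_
    split_ifs with h
    · rfl
    · simp
  have l2 : (∑ q, if s q = k then (∑ p, if Function.update s q l p = i then
      f (Function.update (Function.update s q l) p j) w else 0) else 0) =
      ∑ q, ∑ p, (if s q = k then (if Function.update s q l p = i then
        f (Function.update (Function.update s q l) p j) w else 0) else 0) := by
    refine Finset.sum_congr rfl fun q _ => ?_
    split_ifs with h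
    · rfl
    · simp
  rw [l1, l2, Finset.sum_comm]
  exact Finset.sum_congr rfl fun q _ => Finset.sum_congr rfl fun p _ => e p q

/-- The commutator `[E_ij, E_jk] = E_ik`, `i ≠ k`, `i ≠ j`, `j ≠ k`. -/
lemma EE_bracket (i j k : S) (hij : i ≠ j) (hjk : j ≠ k) (hik : i ≠ k)
    (f : (κ → S) → W → ℂ) :
    EE i j (EE j k f) = EE j k (EE i j f) + EE i k f := by
  funext s w
  rw [Pi.add_apply, Pi.add_apply]
  simp only [EE_eq]
  have e : ∀ p q : κ, (if s p = i then (if Function.update s p j q = j then
      f (Function.update (Function.update s p j) q k) w else 0) else 0) =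
      (if s q = j then (if Function.update s q k p = i then
        f (Function.update (Function.update s q k) p j) w else 0) else 0) +
      (if p = q then (if s p = i then f (Function.update s p k) w else 0) else 0) := by
    intro p q
    by_cases hpq : p = q
    · subst hpq
      rw [Function.update_self, Function.update_self, if_pos rfl, if_neg (Ne.symm hik),
        if_pos rfl, Function.update_idem]
      simp
    · rw [Function.update_of_ne (Ne.symm hpq), Function.update_of_ne hpq,
        Function.update_comm hpq, if_neg hpq, add_zero]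
      by_cases a1 : s p = i <;> by_cases a2 : s q = j <;> simp [a1, a2]
  have l1 : (∑ p, if s p = i then (∑ q, if Function.update s p j q = j then
      f (Function.update (Function.update s p j) q k) w else 0) else 0) =
      ∑ p, ∑ q, (if s p = i then (if Function.update s p j q = j then
      f (Function.update (Function.update s p j) q k) w else 0) else 0) := by
    refine Finset.sum_congr rfl fun p _ => ?_
    split_ifs with h
    · rfl
    · simp
  have l2 : (∑ q, if s q = j then (∑ p, if Function.update s q k p = i then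
      f (Function.update (Function.update s q k) p j) w else 0) else 0) =
      ∑ p, ∑ q, (if s q = j then (if Function.update s q k p = i then
        f (Function.update (Function.update s q k) p j) w else 0) else 0) := by
    rw [Finset.sum_comm]
    refine Finset.sum_congr rfl fun q _ => ?_
    split_ifs with h
    · rfl
    · simp
  have l3 : (∑ p, if s p = i then f (Function.update s p k) w else 0) =
      ∑ p, ∑ q, (if p = q then (if s p = i then f (Function.update s p k) w else 0) else 0) := by
    refine Finset.sum_congr rfl fun p _ => ?_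
    rw [Finset.sum_ite_eq, if_pos (mem_univ _)]
  rw [l1, l2, l3, ← Finset.sum_add_distrib]
  refine Finset.sum_congr rfl fun p _ => ?_
  rw [← Finset.sum_add_distrib]
  exact Finset.sum_congr rfl fun q _ => e p q

lemma act_EE (τ : Equiv.Perm S) (i j : S) (f : (κ → S) → W → ℂ) :
    act τ (EE i j f) = EE (τ i) (τ j) (act τ f) := by
  funext s w
  simp only [act, EE_eq]
  refine Finset.sum_congr rfl fun p _ => ?_
  have h1 : (τ⁻¹ (s p) = i) ↔ (s p = τ i) := by
    rw [Equiv.Perm.inv_eq_iff_eq]
  have h2 : Function.update (fun p => τ⁻¹ (s p)) p j =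
      fun p' => τ⁻¹ (Function.update s p (τ j) p') := by
    funext p'
    by_cases hp : p' = p
    · subst hp
      simp
    · rw [Function.update_of_ne hp, Function.update_of_ne hp]
  by_cases h : s p = τ i
  · rw [if_pos h, if_pos (h1.2 h), h2]
  · rw [if_neg h, if_neg (fun h' => h (h1.1 h'))]

lemma act_act (τ σ : Equiv.Perm S) (f : (κ → S) → W → ℂ) :
    act τ (act σ f) = act (τ * σ) f := by
  funext s w
  simp only [act]
  congr 1

lemma act_one (f : (κ → S) → W → ℂ) : act 1 f = f := by
  funext s w
  simp [act]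

end Ops

section Emb

variable {κ S W : Type} [Fintype κ] [DecidableEq κ] [Fintype S] [DecidableEq S] [Fintype W]

/-- The Hilbert space of functions. -/
abbrev HS (κ S W : Type) : Type := EuclideanSpace ℂ ((κ → S) × W)

/-- The embedding. -/
noncomputable def emb (f : (κ → S) → W → ℂ) : HS κ S W := WithLp.toLp 2 (fun x => f x.1 x.2)

/-- The inverse. -/
def une (x : HS κ S W) : (κ → S) → W → ℂ := fun s w => x (s, w)

lemma une_emb (f : (κ → S) → W → ℂ) : une (emb f) = f := rfl

lemma emb_une (x : HS κ S W) : emb (une x) = x := rfl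

lemma emb_add (f g : (κ → S) → W → ℂ) : emb (f + g) = emb f + emb g := rfl

lemma emb_zero : emb (0 : (κ → S) → W → ℂ) = 0 := rfl

lemma emb_sum {ι : Type*} (C : Finset ι) (t : ι → (κ → S) → W → ℂ) :
    emb (∑ c ∈ C, t c) = ∑ c ∈ C, emb (t c) := by
  classical
  induction C using Finset.induction_on with
  | empty => rfl
  | insert c C hc ih =>
    rw [Finset.sum_insert hc, Finset.sum_insert hc, emb_add, ih]

/-- The operator on the Hilbert space. -/
noncomputable def LE (i j : S) : HS κ S W →ₗ[ℂ] HS κ S W where
  toFun x := emb (EE i j (une x))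
  map_add' x y := by
    have : une (x + y) = une x + une y := rfl
    rw [this, EE_add]
    rfl
  map_smul' c x := by
    have : une (c • x) = c • une x := rfl
    rw [this, EE_smul]
    rfl

lemma LE_emb (i j : S) (f : (κ → S) → W → ℂ) : LE i j (emb f) = emb (EE i j f) := rfl

open scoped InnerProductSpace

lemma inner_emb (f g : (κ → S) → W → ℂ) :
    ⟪emb f, emb g⟫_ℂ = ∑ s, ∑ w, star (f s w) * g s w := by
  rw [PiLp.inner_apply, Fintype.sum_prod_type]
  refine Finset.sum_congr rfl fun s _ => Finset.sum_congr rfl fun w _ => ?_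
  change ⟪f s w, g s w⟫_ℂ = _
  rw [RCLike.inner_apply, mul_comm]
  rfl

/-- The bijection behind the adjointness. -/
lemma sum_update (i j : S) (F : (κ → S) → (κ → S) → ℂ) (p : κ) :
    ∑ s : κ → S, (if s p = i then F s (Function.update s p j) else 0) =
      ∑ s : κ → S, (if s p = j then F (Function.update s p i) s else 0) := by
  rw [← Finset.sum_filter, ← Finset.sum_filter]
  refine Finset.sum_bij' (fun s _ => Function.update s p j) (fun s _ => Function.update s p i)
    ?_ ?_ ?_ ?_ ?_
  · intro s _
    simp
  · intro s _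
    simp
  · intro s hs
    rw [Finset.mem_filter] at hs
    rw [Function.update_idem, ← hs.2, Function.update_eq_self]
  · intro s hs
    rw [Finset.mem_filter] at hs
    rw [Function.update_idem, ← hs.2, Function.update_eq_self]
  · intro s hs
    rw [Finset.mem_filter] at hs
    rw [Function.update_idem]
    rw [← hs.2, Function.update_eq_self]

lemma LE_adj (i j : S) (x y : HS κ S W) : ⟪LE i j x, y⟫_ℂ = ⟪x, LE j i y⟫_ℂ := by
  rw [← emb_une x, ← emb_une y, LE_emb, LE_emb, inner_emb, inner_emb]
  generalize une x = f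
  generalize une y = g
  have e1 : ∀ s w, star (EE i j f s w) * g s w =
      ∑ p, if s p = i then star (f (Function.update s p j) w) * g s w else 0 := by
    intro s w
    rw [EE_eq, star_sum, Finset.sum_mul]
    refine Finset.sum_congr rfl fun p _ => ?_
    split_ifs <;> simp
  have e2 : ∀ s w, star (f s w) * EE j i g s w =
      ∑ p, if s p = j then star (f s w) * g (Function.update s p i) w else 0 := by
    intro s w
    rw [EE_eq, Finset.mul_sum]
    refine Finset.sum_congr rfl fun p _ => ?_
    split_ifs <;> simp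
  have l1 : ∑ s, ∑ w, star (EE i j f s w) * g s w = ∑ w, ∑ s, star (EE i j f s w) * g s w :=
    Finset.sum_comm
  have l2 : ∑ s, ∑ w, star (f s w) * EE j i g s w = ∑ w, ∑ s, star (f s w) * EE j i g s w :=
    Finset.sum_comm
  rw [l1, l2]
  refine Finset.sum_congr rfl fun w _ => ?_
  simp only [e1, e2]
  rw [Finset.sum_comm]
  conv_rhs => rw [Finset.sum_comm]
  refine Finset.sum_congr rfl fun p _ => ?_
  exact sum_update i j (fun s s' => star (f s' w) * g s w) p

end Emb

theorem x1 : X1 := by
  intro κ S W _ _ _ _ _ a b C v t hab hC v1 v2 h2 h3 h3' h4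
  open scoped InnerProductSpace in
  have key : ∀ c ∈ C, (⟪emb (t c), emb v⟫_ℂ).re ≤ 0 := by
    intro c hc
    obtain ⟨hca, hcb⟩ := hC c hc
    -- `E_cb t = (bc) v`, `E_ca t = (ac) v`
    have q1 : EE c b (t c) = act (Equiv.swap b c) v := by
      rw [← h3 c hc, act_EE, act_act, Equiv.swap_mul_self, act_one, Equiv.swap_apply_left,
        Equiv.swap_apply_right]
    have q2 : EE c a (t c) = act (Equiv.swap a c) v := by
      rw [← h3' c hc, act_EE, act_act, Equiv.swap_mul_self, act_one, Equiv.swap_apply_left,
        Equiv.swap_apply_right]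
    have p1 : Equiv.swap b c * Equiv.swap a c = Equiv.swap a c * Equiv.swap a b := by
      ext x
      simp only [Equiv.Perm.mul_apply]
      by_cases x1 : x = a
      · subst x1
        rw [Equiv.swap_apply_left, Equiv.swap_apply_right, Equiv.swap_apply_left,
          Equiv.swap_apply_of_ne_of_ne hab.symm hcb.symm]
      · by_cases x2 : x = b
        · subst x2
          rw [Equiv.swap_apply_right, Equiv.swap_apply_of_ne_of_ne x1 hcb.symm,
            Equiv.swap_apply_left, Equiv.swap_apply_left]
        · by_cases x3 : x = c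
          · subst x3
            rw [Equiv.swap_apply_right, Equiv.swap_apply_of_ne_of_ne x1 x2,
              Equiv.swap_apply_right, Equiv.swap_apply_of_ne_of_ne hab hca.symm]
          · rw [Equiv.swap_apply_of_ne_of_ne x1 x3, Equiv.swap_apply_of_ne_of_ne x1 x2,
              Equiv.swap_apply_of_ne_of_ne x2 x3, Equiv.swap_apply_of_ne_of_ne x1 x3]
    have p2 : Equiv.swap a c * Equiv.swap b c = Equiv.swap b c * Equiv.swap a b := by
      ext x
      simp only [Equiv.Perm.mul_apply]
      by_cases x1 : x = a
      · subst x1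
        rw [Equiv.swap_apply_left, Equiv.swap_apply_of_ne_of_ne hab hca.symm,
          Equiv.swap_apply_left, Equiv.swap_apply_left]
      · by_cases x2 : x = b
        · subst x2
          rw [Equiv.swap_apply_left, Equiv.swap_apply_right, Equiv.swap_apply_right,
            Equiv.swap_apply_of_ne_of_ne (Ne.symm x1) hca.symm]
        · by_cases x3 : x = c
          · subst x3
            rw [Equiv.swap_apply_right, Equiv.swap_apply_of_ne_of_ne x1 x2,
              Equiv.swap_apply_right, Equiv.swap_apply_of_ne_of_ne hab.symm hcb.symm]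
          · rw [Equiv.swap_apply_of_ne_of_ne x2 x3, Equiv.swap_apply_of_ne_of_ne x1 x2,
              Equiv.swap_apply_of_ne_of_ne x1 x3, Equiv.swap_apply_of_ne_of_ne x2 x3]
    -- `E_bc (bc) v + v = E_ab X`
    set Z := act (Equiv.swap b c * Equiv.swap a c) (t c) with hZ
    set Z' := act (Equiv.swap a c * Equiv.swap b c) (t c) with hZ'
    have z1 : Z = act (Equiv.swap a c) (t c) := by
      rw [hZ, p1, ← act_act, h2 c hc]
    have z2 : Z' = act (Equiv.swap b c) (t c) := by
      rw [hZ', p2, ← act_act, h2 c hc]
    have r1 : EE b c (act (Equiv.swap b c) v) + v = EE a b (EE b c Z) := by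
      have e1 : act (Equiv.swap b c) v = EE a b Z := by
        conv_lhs => rw [← h3' c hc]
        rw [act_EE, act_act, ← hZ, Equiv.swap_apply_right,
          Equiv.swap_apply_of_ne_of_ne hab hca.symm]
      have e2 := EE_bracket a b c hab hcb.symm hca.symm Z
      rw [e1, e2]
      congr 1
      rw [z1, h3' c hc]
    have r2 : EE a c (act (Equiv.swap a c) v) + v = EE b a (EE a c Z') := by
      have e1 : act (Equiv.swap a c) v = EE b a Z' := by
        conv_lhs => rw [← h3 c hc]
        rw [act_EE, act_act, ← hZ', Equiv.swap_apply_right,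
          Equiv.swap_apply_of_ne_of_ne hab.symm hcb.symm]
      have e2 := EE_bracket b a c hab.symm hca.symm hcb.symm Z'
      rw [e1, e2]
      congr 1
      rw [z2, h3 c hc]
    refine core (LE a b) (LE b a) (LE b c) (LE c b) (LE a c) (LE c a)
      (fun x y => LE_adj a b x y) (fun x y => LE_adj b a x y)
      (fun x y => (LE_adj c b x y).symm) (fun x y => (LE_adj b c x y).symm)
      (fun x y => (LE_adj c a x y).symm) (fun x y => (LE_adj a c x y).symm)
      ?_ ?_ (emb v) (emb (t c)) (emb (EE b c Z)) (emb (EE a c Z')) ?_ ?_ ?_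
    · intro x
      rw [← emb_une x]
      generalize une x = f
      simp only [LE_emb, ← emb_add]
      congr 1
      rw [EE_add]
      -- E_ab E_bc E_cb + E_ab E_ac E_ca
      have k1 : EE a b (EE b c (EE c b f)) = EE b c (EE a b (EE c b f)) + EE a c (EE c b f) :=
        EE_bracket a b c hab hcb.symm hca.symm _
      have k2 : EE a b (EE c b f) = EE c b (EE a b f) := EE_comm a b c b hcb.symm hab.symm f
      have k3 : EE a b (EE a c (EE c a f)) = EE a c (EE a b (EE c a f)) :=
        EE_comm a b a c hab.symm hca _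
      have k4 : EE c a (EE a b f) = EE a b (EE c a f) + EE c b f :=
        EE_bracket c a b hca hab hcb f
      rw [k1, k2, k3, k4, EE_add]
      abel
    · intro x
      rw [← emb_une x]
      generalize une x = f
      simp only [LE_emb, ← emb_add]
      congr 1
      rw [EE_add]
      have k1 : EE b a (EE a c (EE c a f)) = EE a c (EE b a (EE c a f)) + EE b c (EE c a f) :=
        EE_bracket b a c hab.symm hca.symm hcb.symm _
      have k2 : EE b a (EE c a f) = EE c a (EE b a f) := EE_comm b a c a hca.symm hab f
      have k3 : EE b a (EE b c (EE c b f)) = EE b c (EE b a (EE c b f)) :=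
        EE_comm b a b c hab hcb _
      have k4 : EE c b (EE b a f) = EE b a (EE c b f) + EE c a f :=
        EE_bracket c b a hcb hab.symm hca f
      rw [k1, k2, k3, k4, EE_add]
      abel
    · rw [LE_emb, v1, emb_zero]
    · rw [LE_emb, v2, emb_zero]
    · simp only [LE_emb, ← emb_add]
      congr 1
      rw [q1, q2, ← r1, ← r2]
      abel
  open scoped InnerProductSpace in
  have h5 : (⟪emb v, emb v⟫_ℂ).re ≤ 0 := by
    have e1 : ⟪emb (v + v), emb v⟫_ℂ = ∑ c ∈ C, ⟪emb (t c), emb v⟫_ℂ := by
      rw [h4]
      have : emb (∑ c ∈ C, t c) = ∑ c ∈ C, emb (t c) := emb_sum C t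
      rw [this, sum_inner]
    have e2 : (⟪emb (v + v), emb v⟫_ℂ).re ≤ 0 := by
      rw [e1, Complex.re_sum]
      exact Finset.sum_nonpos key
    rw [emb_add, inner_add_left, Complex.add_re] at e2
    linarith
  have h6 : emb v = 0 := by
    have := inner_self_nonneg (𝕜 := ℂ) (x := emb v)
    have h7 : RCLike.re (inner ℂ (emb v) (emb v)) = 0 := le_antisymm (by simpa using h5) this
    exact inner_self_eq_zero.1 (by
      have := inner_self_eq_norm_sq_to_K (𝕜 := ℂ) (emb v)
      rw [inner_self_eq_norm_sq (𝕜 := ℂ)] at h7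
      rw [this]
      have h8 : ‖emb v‖ = 0 := by
        exact pow_eq_zero_iff (two_ne_zero) |>.1 h7
      rw [h8]
      simp)
  have h7 : une (emb v) = une 0 := by rw [h6]
  rw [une_emb] at h7
  rw [h7]
  rfl

end Vale.Agent.P181.H663
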